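import Vale.Agent.P281.R2.H73.Defs
import Vale.Agent.P281.R2.H877.Camp
import Vale.Agent.P281.H723.FS.Fin
import Vale.Agent.P284.H500.Iit.DefsD

/-!
# P281: Campana's inequality on compact Kähler manifolds with universal covering `ℂⁿ`

`X` is a compact connected Kähler manifold of dimension `n ≥ 1` with universal covering `ℂⁿ`; or the
holomorphic functions of its universal covering separate points, `X` is dominated by a complex vector
space, and its fundamental group is amenable or `X` has many entire curves (`IsUnifD`). `Δ` is a rational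
SNC boundary of `X` (coefficients `1` allowed).

`f : X ⇢ Y` is a meromorphic map, holomorphic on the open subset `Z` (embedded by `j`) of `X`, whose
complement has codimension `≥ 2`, and `i : F → Z` is a compact connected smooth fibre of `f : Z → Y`
(or, more generally, of its Stein factorization), contained in no component of `Δ`. `k := kodF` is
computed with the meromorphic pluricanonical forms of `Y` whose pull-backs to `X` are tensors with poles
at most `m Δ`, and `k ≥ κ(f | Δ)` by (3).

1. `X` is a finite étale quotient of a complex torus (Iitaka's conjecture for the universal covering `ℂⁿ`).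
2. `Ineq`: `κ(X, K_X + Δ) ≥ κ(F, K_F + Δ|_F) + k` for all `Δ` and all `f`.
3. `OrbLe`: `κ(Y, K_Y + Γ) ≤ k` if `Γ` is a rational SNC boundary of `Y` and `f : (Z, Δ|_Z) → (Y, Γ)` is a
   morphism of orbifolds in codimension one, and `κ(f₀ | Δ) ≤ k` for `f₀ : X → Y₀`, where `κ(f₀ | Δ)` is
   Campana's orbifold base dimension, if `f` is given by a neat model of `f₀`.
-/

open scoped Manifold ContDiff
open Vale.Agent.P281.FS

namespace Vale.Agent.Results.P281.UniformisedSpaces

open Vale.Agent.P281.R2.H73 (Ineq)
open Vale.Agent.P284.H500.Iit (IsUnifD IsTorusQuot)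

theorem result {n p d : ℕ} (h1 : 1 ≤ n) (hn : n = p + d) {X Z Y F : Type}
    [TopologicalSpace X] [T2Space X] [CompactSpace X] [ConnectedSpace X] [Mfd n X]
    [IsManifold 𝓘(ℂ, Cm n) ω X]
    [TopologicalSpace Z] [Mfd n Z]
    [TopologicalSpace Y] [T2Space Y] [ConnectedSpace Y] [Mfd p Y]
    [TopologicalSpace F] [T2Space F] [CompactSpace F] [ConnectedSpace F] [Mfd d F]
    (Δ : Set X → ℝ) (j : Z → X) (f : Z → Y) (i : F → Z)
    (hi : Setup (Cm n) (Cm p) (Cm d) Δ j f i) (hinj : Function.Injective i)
    (w : Form n X) (hw : Vale.Agent.P272.K.IsKahler w) (hX : IsUnifD n X) :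
    IsTorusQuot n X ∧ Ineq n p d Δ j f i ∧ OrbLe (Cm n) (Cm p) Δ j f (kodF n p Δ j f) := by
  obtain ⟨χ, hχ, hfl, -⟩ := Vale.Agent.P284.H500.Iit.flat_of_unifK hw hX.unifK
  exact ⟨Vale.Agent.P284.H248.torus_of_flat hχ hfl,
    Vale.Agent.P281.R2.H877.campana_hsc h1 hn hχ hfl.nonpos hi hinj, orb_of Δ j f i hi⟩

end Vale.Agent.Results.P281.UniformisedSpaces
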